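import Vale.Agent.P319.S2.H510.Defs

/-! P319, block S2: piece 4 (the mean on the smaller classes). -/

namespace Vale.Agent.P319.S2

open Finset Matrix Vale.Agent.P319.SC Vale.Agent.P319.SC.H323 Vale.Agent.P319.SC.H235

set_option linter.all false

theorem avg : AvgStmt := by
  intro V ι _ _ _ k 𝒟 hk D hD f hf hf2 x v v' z t η B₁ hη hB₁ hz ht hav
  classical
  set 𝒢 : Cfg V ι (k + 1) := (𝒟.fix v).fix v' with h𝒢
  have hc1 : ∀ s, 𝒢.c1 s = 𝒟.c3 v v' s := fun s => fixfix_c1 (m := k + 1) 𝒟 (by omega) v v' s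
  have hc2 : ∀ r s, 𝒢.c2 r s = 𝒟.c4 v v' r s :=
    fun r s => fixfix_c2 (m := k + 1) 𝒟 (by omega) v v' r s
  have hcls : ∀ s, 𝒢.cls (𝒢.c1 s) = C3 𝒟 v v' s := by
    intro s
    ext r
    rw [𝒢.mem_cls, hc1, hc1, C3, mem_filter]
    simp
  have hsub : ∀ s, C3 (𝒟.fix x) v v' s ⊆ C3 𝒟 v v' s := by
    intro s r hr
    rw [C3, mem_filter] at hr ⊢
    refine ⟨mem_univ _, ?_⟩
    have h1 := hr.2
    rw [Cfg.fix_c3 (m := k + 2) 𝒟 (by omega), Cfg.fix_c3 (m := k + 2) 𝒟 (by omega)] at h1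
    exact (𝒟.c4_sub (by omega) h1).2.2.2
  have hmem : ∀ s, s ∈ C3 𝒟 v v' s := by
    intro s
    rw [C3, mem_filter]
    exact ⟨mem_univ _, rfl⟩
  set M : Matrix V V ℝ := fun a c => f v a c * f v' a c with hM
  have hMi : 𝒢.Inv2 M := by
    intro a b a' b' h
    rw [hc2, hc2] at h
    have h4 := 𝒟.c4_sub (by omega) h
    simp only [hM]
    rw [hf _ _ _ _ _ _ h4.2.2.1, hf _ _ _ _ _ _ h4.2.2.2]
  have hMsq : ∀ a c, M a c ^ 2 ≤ 16 := by
    intro a c
    have h4 := hf2 v a c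
    have h5 := hf2 v' a c
    have h6 : |M a c| ≤ 4 := by
      simp only [hM]
      rw [abs_mul]
      nlinarith [abs_nonneg (f v a c), abs_nonneg (f v' a c)]
    rw [← sq_abs]
    nlinarith [abs_nonneg (M a c)]
  set A := C3 (𝒟.fix x) v v' z with hA
  set B := C3 (𝒟.fix x) v v' t with hB
  set C := C3 𝒟 v v' z with hC
  set C' := C3 𝒟 v v' t with hC'
  have hA' : A ⊆ 𝒢.cls (𝒢.c1 z) := by rw [hcls]; exact hsub z
  have hB' : B ⊆ 𝒢.cls (𝒢.c1 t) := by rw [hcls]; exact hsub t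
  have hCp : (0 : ℝ) < C.card := by exact_mod_cast card_pos.2 ⟨z, hmem z⟩
  have hCp' : (0 : ℝ) < C'.card := by exact_mod_cast card_pos.2 ⟨t, hmem t⟩
  have hA0 : (0 : ℝ) ≤ A.card := Nat.cast_nonneg _
  have hB0 : (0 : ℝ) ≤ B.card := Nat.cast_nonneg _
  have key := mixI 𝒢 (by omega) (hD v v') hMi (𝒢.c1 z) (𝒢.c1 t) hA' hB'
    (S := (C.card : ℝ) * (C'.card * 16)) (K := 4 * B₁ * ((A.card : ℝ) * B.card))
    (by
      rw [hcls, hcls]
      exact sum2_le _ _ _ fun a _ c _ => hMsq a c)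
    (by positivity)
    (by
      calc (C.card : ℝ) * (C'.card * 16) * ((A.card : ℝ) * B.card)
          = (16 * ((A.card : ℝ) * B.card)) * ((C.card : ℝ) * C'.card) := by ring
        _ ≤ (16 * ((A.card : ℝ) * B.card)) * ((B₁ * A.card) * (B₁ * B.card)) := by
            refine mul_le_mul_of_nonneg_left ?_ (by positivity)
            exact mul_le_mul hz ht hCp'.le (by positivity)
        _ = (4 * B₁ * ((A.card : ℝ) * B.card)) ^ 2 := by ring)
  rw [hcls, hcls] at key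
  set s : ℝ := ∑ a ∈ C, ∑ c ∈ C', M a c with hs
  set E : ℝ := Real.sqrt D with hE
  have hE0 : 0 ≤ E := Real.sqrt_nonneg _
  set Z : ℝ := ∑ a ∈ A, ∑ c ∈ B, M a c with hZ
  have hav' : |s / ((C.card : ℝ) * C'.card) * ((A.card : ℝ) * B.card)| ≤
      η * ((A.card : ℝ) * B.card) := by
    rw [abs_mul, abs_div, abs_of_pos (mul_pos hCp hCp'),
      abs_of_nonneg (mul_nonneg hA0 hB0)]
    refine mul_le_mul_of_nonneg_right ?_ (by positivity)
    rw [div_le_iff₀ (mul_pos hCp hCp')]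
    exact hav
  have h8 : |Z| ≤ η * ((A.card : ℝ) * B.card) +
      |Z - s / ((C.card : ℝ) * C'.card) * ((A.card : ℝ) * B.card)| := by
    set Y : ℝ := s / ((C.card : ℝ) * C'.card) * ((A.card : ℝ) * B.card) with hY
    have h9 : |Z| ≤ |Y| + |Z - Y| := by
      have : Z = Y + (Z - Y) := by ring
      calc |Z| = |Y + (Z - Y)| := by rw [← this]
        _ ≤ _ := abs_add_le _ _
    linarith
  have h10 : E * |Z| ≤ E * (η * ((A.card : ℝ) * B.card)) +
      E * |Z - s / ((C.card : ℝ) * C'.card) * ((A.card : ℝ) * B.card)| := by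
    rw [← mul_add]
    exact mul_le_mul_of_nonneg_left h8 hE0
  show E * |Z| ≤ (E * η + 4 * B₁) * ((A.card : ℝ) * B.card)
  calc E * |Z| ≤ E * (η * ((A.card : ℝ) * B.card)) + 4 * B₁ * ((A.card : ℝ) * B.card) := by
        linarith
    _ = _ := by ring

end Vale.Agent.P319.S2
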